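import Vale.Agent.P042.H452.SeamK
import Vale.Agent.P042.H284.Glue

set_option autoImplicit false

/-!
P042, row 32f / 29: the dictionary between the pair sums of the seam and the pairings of two laws on
the product space of all typed sites (kernels of the primes above the threshold of the tilts are the
exact kernels `kN`, carried by the modulus), with and without an extra site.
-/

namespace Vale.Agent.P042.H283

open Polynomial Finset Vale.Agent.P042.SS Vale.Agent.P042.H74 Vale.Agent.P042.H452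

section allsites

variable {α : Type*} [Fintype α] [DecidableEq α]

/-- the kernel of a typed site: tilted below the threshold, exact above -/
noncomputable def Kx (g : ℤ[X]) (prm : α → ℕ) (lo : α → Prop) [DecidablePred lo]
    (K : {i // lo i} → ℤ → ℤ → ℝ) (i : α) (n m : ℤ) : ℝ :=
  if h : lo i then K ⟨i, h⟩ n m else kN g (prm i) (n - m)

omit [Fintype α] [DecidableEq α] in
theorem prod_Kx (g : ℤ[X]) (prm : α → ℕ) (lo : α → Prop) [DecidablePred lo]
    (K : {i // lo i} → ℤ → ℤ → ℝ) (B : Finset α) (n m : ℤ) :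
    ∏ i ∈ B, Kx g prm lo K i n m =
      (∏ i ∈ B.subtype lo, K i n m) * ∏ i ∈ B.filter (fun i => ¬ lo i), kN g (prm i) (n - m) := by
  rw [← prod_filter_mul_prod_filter_not B lo]
  congr 1
  · have h1 : B.filter lo = (B.subtype lo).map (Function.Embedding.subtype lo) := by
      rw [subtype_map]
    rw [h1, prod_map]
    refine prod_congr rfl fun i _ => ?_
    unfold Kx
    rw [Function.Embedding.coe_subtype, dif_pos i.2]
  · refine prod_congr rfl fun i hi => ?_
    unfold Kx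
    rw [dif_neg (mem_filter.1 hi).2]

/-- **primes inside the modulus are sites with the exact kernel** -/
theorem FB_all (g : ℤ[X]) (PP : Finset ℕ) (hPP : NS g PP) (S1 S2 : Finset ℤ) (w w' : ℤ → ℝ)
    (prm : α → ℕ) (hinj : Function.Injective prm) (hprm : ∀ i, prm i ∈ PP) (lo : α → Prop)
    [DecidablePred lo] (K : {i // lo i} → ℤ → ℤ → ℝ) (B : Finset α) (m2 : ℕ) (hm2 : 1 ≤ m2)
    (h : ∀ i ∈ B, ¬ lo i → ¬ prm i ∣ m2) :
    FB g PP S1 S2 w w' K (B.subtype lo) ((∏ i ∈ B.filter (fun i => ¬ lo i), prm i) * m2) =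
      FB g PP S1 S2 w w' (Kx g prm lo K) B m2 := by
  unfold FB
  refine sum_congr rfl fun n _ => sum_congr rfl fun m _ => ?_
  rw [Ram_index g PP hPP prm hinj hprm _ m2 hm2 (fun i hi => h i (mem_filter.1 hi).1
    (mem_filter.1 hi).2) (n - m), prod_Kx]
  push_cast
  ring

end allsites

section push

variable {Ω : Type*} {ι : Type*} [Fintype ι] [DecidableEq ι] {V : ι → Type*} [∀ i, Fintype (V i)]
  [∀ i, DecidableEq (V i)]

/-- pairing of two push-forward laws, different weights -/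
theorem pr_push2 {red : Ω → ∀ i, V i} {S S' : Finset Ω} {f f' : Ω → ℝ}
    (Φ : (∀ i, V i) → (∀ i, V i) → ℝ) :
    ∑ x, ∑ y, H359.push red S f x * H359.push red S' f' y * Φ x y =
      (∑ n ∈ S, ∑ m ∈ S', f n * f' m * Φ (red n) (red m)) /
        ((∑ n ∈ S, f n) * ∑ n ∈ S', f' n) := by
  have e1 : ∀ x, ∑ y, H359.push red S f x * H359.push red S' f' y * Φ x y =
      H359.push red S f x * ((∑ m ∈ S', f' m * Φ x (red m)) / ∑ n ∈ S', f' n) := by
    intro x
    rw [← H359.sum_push (red := red) (S := S') (g := f') fun y => Φ x y, mul_sum]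
    exact sum_congr rfl fun y _ => by ring
  rw [sum_congr rfl fun x _ => e1 x, H359.sum_push, mul_comm (∑ n ∈ S, f n), ← div_div]
  congr 1
  rw [sum_div]
  refine sum_congr rfl fun n _ => ?_
  rw [mul_div_assoc', mul_sum]
  congr 1
  exact sum_congr rfl fun m _ => by ring

/-- **no modulus**: the pair sum of the seam is the pairing of the two push-forward laws -/
theorem FB_FK (g : ℤ[X]) (PP : Finset ℕ) (hPP : NS g PP) (S1 S2 : Finset ℤ) (f f' : ℤ → ℝ)
    (red : ℤ → ∀ i, V i) (K : ∀ i, V i → V i → ℝ) (Kz : ι → ℤ → ℤ → ℝ) (B : Finset ι)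
    (hK : ∀ i ∈ B, ∀ n ∈ S1, ∀ m ∈ S2, Kz i n m = K i (red n i) (red m i))
    (h1 : (∑ n ∈ S1, f n) ≠ 0) (h2 : (∑ n ∈ S2, f' n) ≠ 0) :
    FB g PP S1 S2 f f' Kz B 1 = (((∑ n ∈ S1, f n) * (∑ n ∈ S2, f' n) *
      H284.FK K (H359.push red S1 f) (H359.push red S2 f') B : ℝ) : ℂ) := by
  unfold H284.FK
  rw [pr_push2 (fun x y => ∏ i ∈ B, K i (x i) (y i)), mul_div_cancel₀ _ (mul_ne_zero h1 h2)]
  unfold FB
  push_cast
  refine sum_congr rfl fun n hn => sum_congr rfl fun m hm => ?_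
  rw [Ram_one g PP hPP, mul_one]
  congr 1
  exact prod_congr rfl fun i hi => by rw [hK i hi n hn m hm]

/-- the cosets of `D` determine the local factor -/
theorem Ram_congr (g : ℤ[X]) (PP : Finset ℕ) {D : ℕ} (hD : 1 ≤ D) {t s : ℤ}
    (h : (D : ℤ) ∣ t - s) : Ram g PP D t = Ram g PP D s := by
  obtain ⟨c, hc⟩ := h
  have hD' : (D : ℝ) ≠ 0 := by positivity
  have ht : (t : ℝ) = s + D * c := by
    have : t = s + D * c := by linarith
    exact_mod_cast this
  unfold Ram cR
  refine sum_congr rfl fun a _ => ?_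
  congr 1
  have h1 : -((t : ℝ) * ((a : ℝ) / D)) = -((s : ℝ) * ((a : ℝ) / D)) + ((-(c * a) : ℤ) : ℝ) := by
    rw [ht]
    push_cast
    field_simp
    ring
  rw [h1, e_add_int]

section oo

variable {β : Type*} [Fintype β] [DecidableEq β] {U : Option β → Type*} [∀ i, Fintype (U i)]
  [∀ i, DecidableEq (U i)]

/-- **a modulus `m` is one extra site**: kernel = real part of the local factor -/
theorem FB_FKo (g : ℤ[X]) (PP : Finset ℕ) (S1 S2 : Finset ℤ) (f f' : ℤ → ℝ)
    (red : ℤ → ∀ i, U i) (K : ∀ i, U i → U i → ℝ) (Kz : β → ℤ → ℤ → ℝ) (B : Finset β) (m2 : ℕ)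
    (hK : ∀ i ∈ B, ∀ n ∈ S1, ∀ m ∈ S2, Kz i n m = K (some i) (red n (some i)) (red m (some i)))
    (hKo : ∀ n ∈ S1, ∀ m ∈ S2, (Ram g PP m2 (n - m)).re = K none (red n none) (red m none))
    (h1 : (∑ n ∈ S1, f n) ≠ 0) (h2 : (∑ n ∈ S2, f' n) ≠ 0) :
    (FB g PP S1 S2 f f' Kz B m2).re = (∑ n ∈ S1, f n) * (∑ n ∈ S2, f' n) *
      H284.FK K (H359.push red S1 f) (H359.push red S2 f')
        (insert none (B.map Function.Embedding.some)) := by
  unfold H284.FK
  rw [pr_push2 (fun x y => ∏ i ∈ insert none (B.map Function.Embedding.some), K i (x i) (y i)),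
    mul_div_cancel₀ _ (mul_ne_zero h1 h2)]
  unfold FB
  rw [Complex.re_sum]
  refine sum_congr rfl fun n hn => ?_
  rw [Complex.re_sum]
  refine sum_congr rfl fun m hm => ?_
  rw [Complex.re_ofReal_mul, hKo n hn m hm, prod_insert (by simp), prod_map]
  rw [prod_congr rfl fun i hi => hK i hi n hn m hm]
  have e1 : ∏ i ∈ B, K (Function.Embedding.some i) (red n (Function.Embedding.some i))
      (red m (Function.Embedding.some i)) =
      ∏ i ∈ B, K (some i) (red n (some i)) (red m (some i)) := rfl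
  rw [e1]
  ring

end oo

end push

section typed

variable {α : Type*} [Fintype α] [DecidableEq α]

/-- an exact kernel on the residues is the exact kernel on the integers -/
theorem kN_red (g : ℤ[X]) {p : ℕ} {X : Type*} {v : X → ℕ} {r : ℤ → X}
    (hr : ∀ n : ℤ, (p : ℤ) ∣ n - v (r n)) (n m : ℤ) :
    kN g p (n - m) = kN g p ((v (r n) : ℤ) - v (r m)) := by
  refine H954.kN_per' g p (n - m) ((v (r n) : ℤ) - v (r m)) ?_
  have h3 : n - m - ((v (r n) : ℤ) - v (r m)) = (n - v (r n)) - (m - v (r m)) := by ring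
  rw [h3]
  exact dvd_sub (hr n) (hr m)

/-- **all typed sites, no modulus**: `FBa 1 B = mass * mass' * FK` -/
theorem FBa_FK {V : α → Type*} [∀ i, Fintype (V i)] [∀ i, DecidableEq (V i)] (g : ℤ[X])
    (PP : Finset ℕ) (hPP : NS g PP) (S1 S2 : Finset ℤ) (f f' : ℤ → ℝ) (prm : α → ℕ)
    (hinj : Function.Injective prm) (hprm : ∀ i, prm i ∈ PP) (lo : α → Prop) [DecidablePred lo]
    (v : ∀ i, V i → ℕ) (red : ℤ → ∀ i, V i) (hr : ∀ i n, (prm i : ℤ) ∣ n - v i (red n i))
    (K : ∀ i, V i → V i → ℝ)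
    (hV : ∀ i, ¬ lo i → K i = fun x y => kN g (prm i) ((v i x : ℤ) - v i y))
    (B : Finset α) (h1 : (∑ n ∈ S1, f n) ≠ 0) (h2 : (∑ n ∈ S2, f' n) ≠ 0) :
    FB g PP S1 S2 f f' (fun (i : {i // lo i}) n m => K i (red n i) (red m i)) (B.subtype lo)
        ((∏ i ∈ B.filter (fun i => ¬ lo i), prm i) * 1) =
      (((∑ n ∈ S1, f n) * (∑ n ∈ S2, f' n) *
        H284.FK K (H359.push red S1 f) (H359.push red S2 f') B : ℝ) : ℂ) := by
  rw [FB_all g PP hPP S1 S2 f f' prm hinj hprm lo _ B 1 le_rfl fun i _ _ h =>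
    (hPP _ (hprm i)).1.one_lt.ne' (Nat.dvd_one.1 h)]
  refine FB_FK g PP hPP S1 S2 f f' red K _ B ?_ h1 h2
  intro i _ n _ m _
  unfold Kx
  split_ifs with h
  · rfl
  · rw [hV i h]
    exact kN_red g (hr i) n m

/-- **all typed sites and a modulus `m2`** (extra site `none`):
`(FBa m2 B).re = mass * mass' * FK` -/
theorem FBa_FKo {V : Option α → Type*} [∀ i, Fintype (V i)] [∀ i, DecidableEq (V i)] (g : ℤ[X])
    (PP : Finset ℕ) (hPP : NS g PP) (S1 S2 : Finset ℤ) (f f' : ℤ → ℝ) (prm : α → ℕ)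
    (hinj : Function.Injective prm) (hprm : ∀ i, prm i ∈ PP) (lo : α → Prop) [DecidablePred lo]
    (m2 : ℕ) (hm2 : 1 ≤ m2) (v : ∀ i, V i → ℕ) (red : ℤ → ∀ i, V i)
    (hr : ∀ i n, (prm i : ℤ) ∣ n - v (some i) (red n (some i)))
    (hro : ∀ n, (m2 : ℤ) ∣ n - v none (red n none))
    (K : ∀ i, V i → V i → ℝ)
    (hV : ∀ i, ¬ lo i → K (some i) = fun x y => kN g (prm i) ((v (some i) x : ℤ) - v (some i) y))
    (hKo : K none = fun x y => (Ram g PP m2 ((v none x : ℤ) - v none y)).re)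
    (B : Finset α) (hB : ∀ i ∈ B, ¬ lo i → ¬ prm i ∣ m2)
    (h1 : (∑ n ∈ S1, f n) ≠ 0) (h2 : (∑ n ∈ S2, f' n) ≠ 0) :
    (FB g PP S1 S2 f f' (fun (i : {i // lo i}) n m => K (some (i : α)) (red n (some (i : α)))
        (red m (some (i : α)))) (B.subtype lo)
        ((∏ i ∈ B.filter (fun i => ¬ lo i), prm i) * m2)).re =
      (∑ n ∈ S1, f n) * (∑ n ∈ S2, f' n) *
        H284.FK K (H359.push red S1 f) (H359.push red S2 f')
          (insert none (B.map Function.Embedding.some)) := by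
  rw [FB_all g PP hPP S1 S2 f f' prm hinj hprm lo _ B m2 hm2 hB]
  refine FB_FKo g PP S1 S2 f f' red K _ B m2 ?_ ?_ h1 h2
  · intro i _ n _ m _
    unfold Kx
    split_ifs with h
    · rfl
    · rw [hV i h]
      exact kN_red g (hr i) n m
  · intro n _ m _
    rw [hKo]
    refine congrArg Complex.re (Ram_congr g PP hm2 ?_)
    have h3 : n - m - ((v none (red n none) : ℤ) - v none (red m none)) =
        (n - v none (red n none)) - (m - v none (red m none)) := by ring
    rw [h3]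
    exact dvd_sub (hro n) (hro m)

end typed

end Vale.Agent.P042.H283
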